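import Mathlib

/-!
# P050: a bound on sums of log-supermodular functions on a powerset
-/

namespace Vale.Agent.P050

open Finset

/-- Log-supermodularity on a lattice. -/
def LogSM {α : Type*} [Lattice α] (F : α → ℝ) : Prop :=
  ∀ x y, F x * F y ≤ F (x ⊓ y) * F (x ⊔ y)

variable {k : ℕ}

/-- Product weight of a finite set of size `j` when sorted to the front. -/
noncomputable def frontW (a b : Fin k → ℝ) (j : ℕ) : ℝ :=
  ∏ i : Fin k, if (i : ℕ) < j then a i else b i

lemma frontW_pos {a b : Fin k → ℝ} (ha : ∀ i, 0 < a i) (hb : ∀ i, 0 < b i) (j : ℕ) :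
    0 < frontW a b j := by
  refine Finset.prod_pos fun i _ => ?_
  split <;> simp [ha, hb]

lemma abel_le (d c q : ℕ → ℝ) (n : ℕ) (he : ∀ j ≤ n, d j ≤ c j)
    (hq0 : q 0 ≤ 1) (hq : ∀ j < n, q (j + 1) ≤ q j) (hqn : q n = 0) :
    d 0 + ∑ j ∈ range n, q j * (d (j + 1) - d j) ≤
      c 0 + ∑ j ∈ range n, q j * (c (j + 1) - c j) := by
  have key : ∀ j ≤ n, q j * (c j - d j) ≤
      (c 0 + ∑ i ∈ range j, q i * (c (i + 1) - c i)) -
        (d 0 + ∑ i ∈ range j, q i * (d (i + 1) - d i)) := by
    intro j hj
    induction j with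
    | zero =>
      have h := he 0 (Nat.zero_le _)
      simp only [Finset.range_zero, Finset.sum_empty, add_zero]
      nlinarith
    | succ j ih =>
      have h1 := ih (by omega)
      have h2 := he (j + 1) hj
      have h3 := hq j (by omega)
      have h4 : 0 ≤ (q j - q (j + 1)) * (c (j + 1) - d (j + 1)) :=
        mul_nonneg (by linarith) (by linarith)
      rw [Finset.sum_range_succ, Finset.sum_range_succ]
      nlinarith
  have := key n le_rfl
  rw [hqn] at this
  linarith

/-- The first `j` elements in the order given by a permutation. -/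
def front (π : Equiv.Perm (Fin k)) (j : ℕ) : Finset (Fin k) :=
  univ.filter fun x => (π.symm x : ℕ) < j

lemma card_front (π : Equiv.Perm (Fin k)) {j : ℕ} (hj : j ≤ k) : (front π j).card = j := by
  have : front π j = (univ.filter fun i : Fin k => (i : ℕ) < j).map π.toEmbedding := by
    ext x; simp [front, Finset.mem_map_equiv]
  rw [this, Finset.card_map, Fin.card_filter_val_lt]
  omega

/-- Indicator of the `j`th element in the order given by a permutation. -/
noncomputable def ind (π : Equiv.Perm (Fin k)) (S : Finset (Fin k)) (j : ℕ) : ℝ :=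
  if h : j < k then (if π ⟨j, h⟩ ∈ S then 1 else 0) else 0

lemma modular_bound (u : Finset (Fin k) → ℝ) (hu : ∀ x y, u x + u y ≤ u (x ∩ y) + u (x ∪ y))
    (π : Equiv.Perm (Fin k)) (S : Finset (Fin k)) :
    u S ≤ u (front π 0) + ∑ j ∈ range k, ind π S j * (u (front π (j + 1)) - u (front π j)) := by
  have key : ∀ j ≤ k, u (S ∩ front π j) ≤
      u (front π 0) + ∑ i ∈ range j, ind π S i * (u (front π (i + 1)) - u (front π i)) := by
    intro j hj
    induction j with
    | zero => simp [front]
    | succ j ih =>
      have hjk : j < k := hj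
      have h1 := ih (by omega)
      have hmem : ∀ x, x ∈ front π (j + 1) ↔ x ∈ front π j ∨ x = π ⟨j, hjk⟩ := by
        intro x
        simp only [front, Finset.mem_filter, Finset.mem_univ, true_and]
        rw [← π.symm_apply_eq, Fin.ext_iff]
        change _ ↔ _ ∨ ((π.symm x : ℕ) = j)
        omega
      rw [Finset.sum_range_succ]
      simp only [ind, dif_pos hjk]
      by_cases hS : π ⟨j, hjk⟩ ∈ S
      · rw [if_pos hS]
        have h := hu (S ∩ front π (j + 1)) (front π j)
        have e1 : (S ∩ front π (j + 1)) ∩ front π j = S ∩ front π j := by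
          ext x; simp only [Finset.mem_inter, hmem]; tauto
        have e2 : (S ∩ front π (j + 1)) ∪ front π j = front π (j + 1) := by
          ext x; simp only [Finset.mem_inter, Finset.mem_union, hmem]
          constructor
          · tauto
          · rintro (hx | rfl) <;> tauto
        rw [e1, e2] at h
        simp only [ind] at h1
        linarith
      · rw [if_neg hS]
        have e1 : S ∩ front π (j + 1) = S ∩ front π j := by
          ext x; simp only [Finset.mem_inter, hmem]
          constructor
          · rintro ⟨hx, hx' | rfl⟩ <;> tauto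
          · tauto
        rw [e1]
        simp only [ind] at h1
        linarith
  have := key k le_rfl
  have e : front π k = univ := by ext x; simp [front]
  rwa [e, Finset.inter_univ] at this

/-- A log-supermodular positive function on subsets, dominated by a sorted product weight,
has total mass at most the product of the totals. -/
theorem sum_le_prod_add (F : Finset (Fin k) → ℝ) (hpos : ∀ S, 0 < F S) (hF : LogSM F)
    (a b : Fin k → ℝ) (ha : ∀ i, 0 < a i) (hb : ∀ i, 0 < b i)
    (hle : ∀ S, F S ≤ frontW a b S.card) :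
    ∑ S, F S ≤ ∏ i, (a i + b i) := by
  set Z := ∑ S, F S with hZ
  have hZpos : 0 < Z := Finset.sum_pos (fun S _ => hpos S) univ_nonempty
  set μ := fun S => F S / Z with hμ
  have hμ0 : ∀ S, 0 < μ S := fun S => div_pos (hpos S) hZpos
  have hμ1 : ∑ S, μ S = 1 := by
    simp only [hμ, ← Finset.sum_div]; exact div_self hZpos.ne'
  set p : Fin k → ℝ := fun x => ∑ S, if x ∈ S then μ S else 0 with hp
  set π : Equiv.Perm (Fin k) := Tuple.sort (fun x => -p x)
  have hπ := Tuple.monotone_sort (fun x => -p x)
  set q : ℕ → ℝ := fun j => ∑ S, μ S * ind π S j with hq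
  have hqp : ∀ j (h : j < k), q j = p (π ⟨j, h⟩) := by
    intro j h
    simp only [hq, hp, ind, dif_pos h, mul_ite, mul_one, mul_zero]
  have hqk : ∀ j, k ≤ j → q j = 0 := by
    intro j h
    simp [hq, ind, not_lt.mpr h]
  have hqnn : ∀ j, 0 ≤ q j := by
    intro j
    refine Finset.sum_nonneg fun S _ => mul_nonneg (hμ0 S).le ?_
    unfold ind
    split <;> [split; skip] <;> norm_num
  have hq0 : q 0 ≤ 1 := by
    calc q 0 ≤ ∑ S, μ S * 1 := by
          refine Finset.sum_le_sum fun S _ => mul_le_mul_of_nonneg_left ?_ (hμ0 S).le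
          unfold ind
          split <;> [split; skip] <;> norm_num
      _ = 1 := by simp [hμ1]
  have hqanti : ∀ j < k, q (j + 1) ≤ q j := by
    intro j hj
    rcases lt_or_ge (j + 1) k with h | h
    · rw [hqp _ h, hqp _ hj]
      have h1 : (⟨j, hj⟩ : Fin k) ≤ ⟨j + 1, h⟩ := by simp [Fin.le_def]
      have := hπ h1
      simp only [Function.comp_apply, neg_le_neg_iff] at this
      exact this
    · rw [hqk _ h]; exact hqnn j
  set T : Finset (Fin k) → ℝ := fun S => ∏ i, if π i ∈ S then a i else b i with hT
  have hTpos : ∀ S, 0 < T S := by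
    intro S; refine Finset.prod_pos fun i _ => ?_
    split <;> simp [ha, hb]
  set c : ℕ → ℝ := fun j => Real.log (frontW a b j) with hc
  set d : ℕ → ℝ := fun j => Real.log (F (front π j)) with hd
  have hlogT : ∀ S, Real.log (T S) = c 0 + ∑ j ∈ range k, ind π S j * (c (j + 1) - c j) := by
    intro S
    have hcj : ∀ j, c j = ∑ i : Fin k,
        (Real.log (b i) + if (i : ℕ) < j then Real.log (a i) - Real.log (b i) else 0) := by
      intro j
      simp only [hc, frontW]
      rw [Real.log_prod]
      · refine Finset.sum_congr rfl fun i _ => ?_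
        split <;> ring
      · intro i _; split <;> simp [(ha i).ne', (hb i).ne']
    have hdiff : ∀ j (h : j < k), c (j + 1) - c j =
        Real.log (a ⟨j, h⟩) - Real.log (b ⟨j, h⟩) := by
      intro j h
      rw [hcj, hcj, ← Finset.sum_sub_distrib]
      rw [Finset.sum_eq_single (⟨j, h⟩ : Fin k)]
      · simp
      · intro i _ hne
        have : (i : ℕ) ≠ j := fun e => hne (Fin.ext e)
        by_cases h' : (i : ℕ) < j
        · simp [h', show (i : ℕ) < j + 1 by omega]
        · simp [h', show ¬ (i : ℕ) < j + 1 by omega]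
      · simp
    have hc0 : c 0 = ∑ i : Fin k, Real.log (b i) := by simp [hcj]
    rw [Finset.sum_range, hc0, ← Finset.sum_add_distrib]
    simp only [hT]
    rw [Real.log_prod]
    · refine Finset.sum_congr rfl fun i _ => ?_
      rw [hdiff i i.isLt]
      simp only [ind, dif_pos i.isLt, Fin.eta]
      split <;> simp
    · intro i _; split <;> simp [(ha i).ne', (hb i).ne']
  have hu : ∀ x y, Real.log (F x) + Real.log (F y) ≤ Real.log (F (x ∩ y)) + Real.log (F (x ∪ y)) := by
    intro x y
    rw [← Real.log_mul (hpos x).ne' (hpos y).ne',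
      ← Real.log_mul (hpos _).ne' (hpos _).ne']
    exact Real.log_le_log (mul_pos (hpos x) (hpos y)) (hF x y)
  have hdc : ∀ j ≤ k, d j ≤ c j := by
    intro j hj
    have := hle (front π j)
    rw [card_front π hj] at this
    exact Real.log_le_log (hpos _) this
  have h1 : ∑ S, μ S * Real.log (F S) ≤ ∑ S, μ S * Real.log (T S) := by
    calc ∑ S, μ S * Real.log (F S)
        ≤ ∑ S, μ S * (d 0 + ∑ j ∈ range k, ind π S j * (d (j + 1) - d j)) :=
          Finset.sum_le_sum fun S _ => mul_le_mul_of_nonneg_left
            (modular_bound (fun S => Real.log (F S)) hu π S) (hμ0 S).le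
      _ = d 0 + ∑ j ∈ range k, q j * (d (j + 1) - d j) := by
          simp only [mul_add, Finset.sum_add_distrib, ← Finset.sum_mul, hμ1, one_mul,
            Finset.mul_sum, ← mul_assoc, hq]
          rw [Finset.sum_comm]
          simp only [← Finset.sum_mul]
      _ ≤ c 0 + ∑ j ∈ range k, q j * (c (j + 1) - c j) :=
          abel_le d c q k hdc hq0 hqanti (hqk k le_rfl)
      _ = ∑ S, μ S * Real.log (T S) := by
          simp only [hlogT, mul_add, Finset.sum_add_distrib, ← Finset.sum_mul, hμ1, one_mul,
            Finset.mul_sum, ← mul_assoc, hq]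
          rw [Finset.sum_comm]
          simp only [← Finset.sum_mul]
  have hsumT : ∑ S, T S = ∏ i, (a i + b i) := by
    have e : ∀ S : Finset (Fin k),
        T S = (∏ x ∈ S, a (π.symm x)) * ∏ x ∈ univ \ S, b (π.symm x) := by
      intro S
      simp only [hT]
      rw [← Equiv.prod_comp π.symm]
      simp only [Equiv.apply_symm_apply]
      rw [Finset.prod_ite]
      congr 1
      · apply Finset.prod_congr _ (fun _ _ => rfl); ext; simp
      · apply Finset.prod_congr _ (fun _ _ => rfl); ext; simp
    rw [← Equiv.prod_comp π.symm (fun i => a i + b i), Finset.prod_add]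
    rw [Finset.powerset_univ]
    exact Finset.sum_congr rfl fun S _ => e S
  rw [← hsumT]
  have hTs : 0 < ∑ S, T S := Finset.sum_pos (fun S _ => hTpos S) univ_nonempty
  have h2 : ∀ S, μ S * (Real.log (T S) - Real.log (F S)) ≤
      (T S / (∑ S, T S) - μ S) + μ S * Real.log ((∑ S, T S) / Z) := by
    intro S
    have hx : 0 < T S / F S * (Z / ∑ S, T S) :=
      mul_pos (div_pos (hTpos S) (hpos S)) (div_pos hZpos hTs)
    have h := Real.log_le_sub_one_of_pos hx
    rw [Real.log_mul (div_pos (hTpos S) (hpos S)).ne' (div_pos hZpos hTs).ne',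
      Real.log_div (hTpos S).ne' (hpos S).ne', Real.log_div hZpos.ne' hTs.ne'] at h
    have h' := mul_le_mul_of_nonneg_left h (hμ0 S).le
    rw [Real.log_div hTs.ne' hZpos.ne']
    have e : μ S * (T S / F S * (Z / ∑ S, T S)) = T S / ∑ S, T S := by
      have := (hpos S).ne'
      simp only [hμ]; field_simp
    simp only [mul_add, mul_sub, mul_one, e] at h'
    simp only [mul_sub]
    linarith
  have h3 := Finset.sum_le_sum (s := univ) fun S (_ : S ∈ univ) => h2 S
  simp only [mul_sub, Finset.sum_sub_distrib, Finset.sum_add_distrib, ← Finset.sum_div, hμ1,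
    ← Finset.sum_mul, div_self hTs.ne', sub_self, zero_add, one_mul] at h3
  have h4 : 0 ≤ Real.log ((∑ S, T S) / Z) := by linarith
  rw [Real.log_nonneg_iff (div_pos hTs hZpos), le_div_iff₀ hZpos, one_mul] at h4
  exact h4

end Vale.Agent.P050
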