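import Mathlib
import Vale.Agent.P050.Binary

/-!
# P050: the same bound on products of chains
-/

namespace Vale.Agent.P050

open Finset

variable {k : ℕ}

/-- Place a vector of nonzero values on the positions sent below `j`, zero elsewhere. -/
def place {j m : ℕ} (e : Equiv.Perm (Fin k)) (w : Fin j → Fin (m + 1)) : Fin k → Fin (m + 2) :=
  fun i => if h : (e i : ℕ) < j then (w ⟨e i, h⟩).succ else 0

lemma place_inf {j m : ℕ} (e : Equiv.Perm (Fin k)) (w w' : Fin j → Fin (m + 1)) :
    place e (w ⊓ w') = place e w ⊓ place e w' := by
  funext i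
  simp only [place, Pi.inf_apply]
  split
  · exact (Fin.strictMono_succ.monotone.map_inf _ _)
  · simp

lemma place_sup {j m : ℕ} (e : Equiv.Perm (Fin k)) (w w' : Fin j → Fin (m + 1)) :
    place e (w ⊔ w') = place e w ⊔ place e w' := by
  funext i
  simp only [place, Pi.sup_apply]
  split
  · exact (Fin.strictMono_succ.monotone.map_sup _ _)
  · simp

/-- Dominated log-supermodular functions on a power of a chain. -/
theorem chain_bound (m : ℕ) : ∀ (k : ℕ) (F : (Fin k → Fin (m + 1)) → ℝ), (∀ v, 0 < F v) →
    LogSM F → ∀ g : Fin k → Fin (m + 1) → ℝ, (∀ i t, 0 < g i t) →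
    (∀ y : Fin k → Fin (m + 1), Antitone y → ∀ π : Equiv.Perm (Fin k),
      F (y ∘ π) ≤ ∏ i, g i (y i)) →
    ∑ v, F v ≤ ∏ i, ∑ t, g i t := by
  induction m with
  | zero =>
    intro k F _ _ g _ hle
    have h := hle (fun _ => 0) antitone_const (Equiv.refl _)
    rw [Fintype.sum_eq_single (fun _ => (0 : Fin (0 + 1)))
      (fun x hx => absurd (funext fun i => Fin.ext (by have := (x i).isLt; simp)) hx)]
    refine le_trans (le_of_eq ?_) (h.trans (le_of_eq ?_))
    · congr 1
    · refine Finset.prod_congr rfl fun i _ => ?_
      exact (Fin.sum_univ_one _).symm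
  | succ m ih =>
    intro k F hpos hF g hg hle
    set supp : (Fin k → Fin (m + 2)) → Finset (Fin k) := fun v => univ.filter fun i => v i ≠ 0
      with hsupp
    set G : Finset (Fin k) → ℝ := fun S => ∑ v ∈ univ.filter (fun v => supp v = S), F v with hG
    have hsum : ∑ v, F v = ∑ S, G S := (Finset.sum_fiberwise univ supp F).symm
    have hGpos : ∀ S, 0 < G S := by
      intro S
      refine Finset.sum_pos (fun v _ => hpos v) ⟨fun i => if i ∈ S then 1 else 0, ?_⟩
      simp only [Finset.mem_filter, Finset.mem_univ, true_and, hsupp]
      ext i; by_cases h : i ∈ S <;> simp [h]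
    have hGsm : LogSM G := by
      intro S T
      have key := four_functions_theorem F F F F (fun v => (hpos v).le) (fun v => (hpos v).le)
        (fun v => (hpos v).le) (fun v => (hpos v).le) hF
        (univ.filter fun v => supp v = S) (univ.filter fun v => supp v = T)
      refine key.trans (mul_le_mul ?_ ?_ (Finset.sum_nonneg fun v _ => (hpos v).le) (hGpos _).le)
      · refine Finset.sum_le_sum_of_subset_of_nonneg ?_ (fun v _ _ => (hpos v).le)
        intro v hv
        obtain ⟨x, hx, y, hy, rfl⟩ := Finset.mem_infs.1 hv
        simp only [Finset.mem_filter, Finset.mem_univ, true_and, hsupp] at hx hy ⊢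
        subst hx; subst hy
        ext i
        simp only [Finset.inf_eq_inter, Finset.mem_inter, Finset.mem_filter, Finset.mem_univ,
          true_and, Pi.inf_apply]
        rcases le_total (x i) (y i) with h | h
        · rw [inf_eq_left.2 h]
          exact ⟨fun hx => ⟨hx, fun h0 => hx (le_antisymm (h0 ▸ h) (Fin.zero_le _))⟩, fun h => h.1⟩
        · rw [inf_eq_right.2 h]
          exact ⟨fun hy => ⟨fun h0 => hy (le_antisymm (h0 ▸ h) (Fin.zero_le _)), hy⟩, fun h => h.2⟩
      · refine Finset.sum_le_sum_of_subset_of_nonneg ?_ (fun v _ _ => (hpos v).le)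
        intro v hv
        obtain ⟨x, hx, y, hy, rfl⟩ := Finset.mem_sups.1 hv
        simp only [Finset.mem_filter, Finset.mem_univ, true_and, hsupp] at hx hy ⊢
        subst hx; subst hy
        ext i
        simp only [Finset.sup_eq_union, Finset.mem_union, Finset.mem_filter, Finset.mem_univ,
          true_and, Pi.sup_apply]
        rcases le_total (x i) (y i) with h | h
        · rw [sup_eq_right.2 h]
          exact ⟨Or.inr, fun hh h0 => hh.elim
            (fun hx => hx (le_antisymm (h0 ▸ h) (Fin.zero_le _))) (fun hy => hy h0)⟩
        · rw [sup_eq_left.2 h]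
          exact ⟨Or.inl, fun hh h0 => hh.elim (fun hx => hx h0)
            (fun hy => hy (le_antisymm (h0 ▸ h) (Fin.zero_le _)))⟩
    set a : Fin k → ℝ := fun i => ∑ t : Fin (m + 1), g i t.succ with ha
    set b : Fin k → ℝ := fun i => g i 0 with hb
    have hab : ∀ i, ∑ t, g i t = a i + b i := by
      intro i; rw [Fin.sum_univ_succ, add_comm]
    have hGle : ∀ S, G S ≤ frontW a b S.card := by
      intro S
      have hjk : S.card ≤ k := by simpa using S.card_le_univ
      generalize hj : S.card = j at hjk
      have hc : Fintype.card {i // i ∈ S} = Fintype.card {i : Fin k // (i : ℕ) < j} := by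
        rw [Fintype.card_coe, Fintype.card_subtype, Fin.card_filter_val_lt, hj]; omega
      let e : Equiv.Perm (Fin k) := (Fintype.equivOfCardEq hc).extendSubtype
      have he : ∀ i, (e i : ℕ) < j ↔ i ∈ S := by
        intro i
        constructor
        · intro h; by_contra hi
          exact (Fintype.equivOfCardEq hc).extendSubtype_not_mem i hi h
        · intro hi
          exact (Fintype.equivOfCardEq hc).extendSubtype_mem i hi
      set C : ℝ := ∏ i : Fin k, if (i : ℕ) < j then 1 else b i with hC
      have hCpos : 0 < C := by
        refine Finset.prod_pos fun i _ => ?_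
        split <;> simp [hb, hg]
      have hGeq : G S = ∑ w : Fin j → Fin (m + 1), F (place e w) := by
        symm
        simp only [hG]
        refine Finset.sum_bij (fun w _ => place e w) ?_ ?_ ?_ (fun _ _ => rfl)
        · intro w _
          simp only [Finset.mem_filter, Finset.mem_univ, true_and, hsupp]
          ext i
          simp only [place, ← he i]
          by_cases h : (e i : ℕ) < j <;> simp [h]
        · intro w _ w' _ h
          funext l
          have hl : (l : ℕ) < k := lt_of_lt_of_le l.isLt hjk
          have := congrFun h (e.symm ⟨l, hl⟩)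
          simpa [place] using this
        · intro v hv
          simp only [Finset.mem_filter, Finset.mem_univ, true_and, hsupp] at hv
          have hne : ∀ l : Fin j, v (e.symm ⟨l, lt_of_lt_of_le l.isLt hjk⟩) ≠ 0 := by
            intro l
            have : e.symm ⟨l, lt_of_lt_of_le l.isLt hjk⟩ ∈ S := by rw [← he]; simp
            rw [← hv] at this
            simpa using this
          refine ⟨fun l => (v (e.symm ⟨l, lt_of_lt_of_le l.isLt hjk⟩)).pred (hne l),
            Finset.mem_univ _, ?_⟩
          funext i
          simp only [place]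
          by_cases h : (e i : ℕ) < j
          · simp [h]
          · rw [dif_neg h]
            have : i ∉ S := fun hi => h ((he i).2 hi)
            rw [← hv] at this
            symm; simpa using this
      rw [hGeq]
      set g' : Fin j → Fin (m + 1) → ℝ := fun i t => g (Fin.castLE hjk i) t.succ with hg'
      have hrec := ih j (fun w => F (place e w) / C) (fun w => div_pos (hpos _) hCpos) ?_ g'
        (fun i t => hg _ _) ?_
      · rw [← Finset.sum_div, div_le_iff₀ hCpos] at hrec
        refine hrec.trans (le_of_eq ?_)
        simp only [hC, frontW, hg', ha]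
        have e2 : (∏ i : Fin j, ∑ t : Fin (m + 1), g (Fin.castLE hjk i) t.succ) =
            ∏ i : Fin k, if (i : ℕ) < j then ∑ t : Fin (m + 1), g i t.succ else 1 := by
          rw [Finset.prod_ite, Finset.prod_const_one, mul_one]
          refine Finset.prod_bij (fun i _ => Fin.castLE hjk i) ?_ ?_ ?_ (fun _ _ => rfl)
          · intro i _; simp
          · intro x _ y _ h; exact Fin.castLE_injective hjk h
          · intro i hi
            simp only [Finset.mem_filter, Finset.mem_univ, true_and] at hi
            exact ⟨⟨i, hi⟩, Finset.mem_univ _, rfl⟩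
        rw [e2, ← Finset.prod_mul_distrib]
        refine Finset.prod_congr rfl fun i _ => ?_
        split <;> simp
      · intro w w'
        simp only [place_inf, place_sup, div_mul_div_comm]
        exact div_le_div_of_nonneg_right (hF _ _) (mul_pos hCpos hCpos).le
      · intro y hy π
        set Y : Fin k → Fin (m + 2) := fun i => if h : (i : ℕ) < j then (y ⟨i, h⟩).succ else 0
          with hY
        have hYanti : Antitone Y := by
          intro p q hpq
          simp only [hY]
          by_cases hq : (q : ℕ) < j
          · have hp : (p : ℕ) < j := lt_of_le_of_lt (Fin.le_def.1 hpq) hq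
            rw [dif_pos hq, dif_pos hp]
            exact Fin.succ_le_succ_iff.2 (hy (Fin.le_def.2 (by simpa using Fin.le_def.1 hpq)))
          · rw [dif_neg hq]; exact Fin.zero_le _
        let f : Fin j ≃ {i : Fin k // (i : ℕ) < j} :=
          { toFun := fun l => ⟨Fin.castLE hjk l, l.isLt⟩
            invFun := fun i => ⟨i.1, i.2⟩
            left_inv := fun l => rfl
            right_inv := fun i => rfl }
        have hplace : place e (y ∘ π) = Y ∘ (e.trans (π.extendDomain f)) := by
          funext i
          by_cases h : (e i : ℕ) < j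
          · have hx : (e.trans (π.extendDomain f)) i = Fin.castLE hjk (π ⟨e i, h⟩) := by
              rw [Equiv.trans_apply, Equiv.Perm.extendDomain_apply_subtype π f h]; rfl
            rw [Function.comp_apply, hx]
            simp [place, hY, h]
          · have hx : (e.trans (π.extendDomain f)) i = e i := by
              rw [Equiv.trans_apply, Equiv.Perm.extendDomain_apply_not_subtype π f h]
            rw [Function.comp_apply, hx]
            simp [place, hY, h]
        rw [hplace, div_le_iff₀ hCpos]
        refine (hle Y hYanti _).trans (le_of_eq ?_)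
        simp only [hC, hg']
        have e2 : (∏ i : Fin j, g (Fin.castLE hjk i) (y i).succ) =
            ∏ i : Fin k, if (i : ℕ) < j then g i (Y i) else 1 := by
          rw [Finset.prod_ite, Finset.prod_const_one, mul_one]
          refine Finset.prod_bij (fun i _ => Fin.castLE hjk i) ?_ ?_ ?_ ?_
          · intro i _; simp
          · intro x _ y _ h; exact Fin.castLE_injective hjk h
          · intro i hi
            simp only [Finset.mem_filter, Finset.mem_univ, true_and] at hi
            exact ⟨⟨i, hi⟩, Finset.mem_univ _, rfl⟩
          · intro i _; simp [hY]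
        rw [e2, ← Finset.prod_mul_distrib]
        refine Finset.prod_congr rfl fun i _ => ?_
        by_cases h : (i : ℕ) < j <;> simp [h, hY, hb]
    rw [hsum]
    refine (sum_le_prod_add G hGpos hGsm a b ?_ (fun i => hg i 0) hGle).trans (le_of_eq ?_)
    · intro i; exact Finset.sum_pos (fun t _ => hg i _) univ_nonempty
    · exact Finset.prod_congr rfl fun i _ => (hab i).symm

/-- Dominated log-supermodular functions of several chain variables. -/
theorem multi_bound (n k m : ℕ) : ∀ (F : (Fin n → Fin k → Fin (m + 1)) → ℝ), (∀ v, 0 < F v) →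
    LogSM F → ∀ φ : Fin k → (Fin n → Fin (m + 1)) → ℝ, (∀ i z, 0 < φ i z) →
    (∀ y : Fin n → Fin k → Fin (m + 1), (∀ r, Antitone (y r)) →
      ∀ π : Fin n → Equiv.Perm (Fin k),
      F (fun r => y r ∘ π r) ≤ ∏ i, φ i (fun r => y r i)) →
    ∑ v, F v ≤ ∏ i, ∑ z, φ i z := by
  induction n with
  | zero =>
    intro F _ _ φ _ hle
    have h := hle (fun r => r.elim0) (fun r => r.elim0) (fun r => r.elim0)
    rw [Fintype.sum_unique]
    refine le_trans (le_of_eq ?_) (h.trans (le_of_eq ?_))
    · congr 1; exact Subsingleton.elim _ _
    · refine Finset.prod_congr rfl fun i _ => ?_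
      rw [Fintype.sum_unique]; congr 1; exact Subsingleton.elim _ _
  | succ n ih =>
    intro F hpos hF φ hφ hle
    have hcinf : ∀ (v v' : Fin k → Fin (m + 1)) (x x' : Fin n → Fin k → Fin (m + 1)),
        (Fin.cons v x : Fin (n + 1) → _) ⊓ Fin.cons v' x' = Fin.cons (v ⊓ v') (x ⊓ x') := by
      intros; funext r; refine Fin.cases ?_ (fun r => ?_) r <;> simp
    have hcsup : ∀ (v v' : Fin k → Fin (m + 1)) (x x' : Fin n → Fin k → Fin (m + 1)),
        (Fin.cons v x : Fin (n + 1) → _) ⊔ Fin.cons v' x' = Fin.cons (v ⊔ v') (x ⊔ x') := by
      intros; funext r; refine Fin.cases ?_ (fun r => ?_) r <;> simp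
    have hsplit : ∀ {α : Type} [Fintype α] (H : (Fin (n + 1) → α) → ℝ),
        ∑ v, H v = ∑ x : Fin n → α, ∑ a, H (Fin.cons a x) := by
      intro α _ H
      rw [← Equiv.sum_comp (Fin.consEquiv fun _ => α), Fintype.sum_prod_type, Finset.sum_comm]
      rfl
    rw [hsplit]
    set G : (Fin n → Fin k → Fin (m + 1)) → ℝ := fun x => ∑ v, F (Fin.cons v x) with hG
    have hGpos : ∀ x, 0 < G x := fun x => Finset.sum_pos (fun v _ => hpos _) univ_nonempty
    have hGsm : LogSM G := by
      intro x x'
      refine four_functions_theorem_univ _ _ _ _ (fun v => (hpos _).le) (fun v => (hpos _).le)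
        (fun v => (hpos _).le) (fun v => (hpos _).le) (fun v v' => ?_)
      have := hF (Fin.cons v x) (Fin.cons v' x')
      rwa [hcinf, hcsup] at this
    refine (ih G hGpos hGsm (fun i z => ∑ t, φ i (Fin.cons t z))
      (fun i z => Finset.sum_pos (fun t _ => hφ _ _) univ_nonempty) ?_).trans (le_of_eq ?_)
    · intro y hy π
      simp only [hG]
      refine chain_bound m k _ (fun v => hpos _) ?_ (fun i t => φ i (Fin.cons t fun r => y r i))
        (fun i t => hφ _ _) ?_
      · intro v v'
        have := hF (Fin.cons v fun r => y r ∘ π r) (Fin.cons v' fun r => y r ∘ π r)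
        rwa [hcinf, hcsup, inf_idem, sup_idem] at this
      · intro y0 hy0 π0
        have := hle (Fin.cons y0 y) (fun r => by refine Fin.cases ?_ (fun r => ?_) r <;> simp [hy0, hy])
          (Fin.cons π0 π)
        refine le_trans (le_of_eq ?_) (this.trans (le_of_eq ?_))
        · congr 1; funext r; refine Fin.cases ?_ (fun r => ?_) r <;> simp
        · refine Finset.prod_congr rfl fun i _ => ?_
          congr 1; funext r; refine Fin.cases ?_ (fun r => ?_) r <;> simp
    · exact Finset.prod_congr rfl fun i _ => (hsplit (φ i)).symm

end Vale.Agent.P050
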