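import Mathlib
import Vale.Agent.P050.Chain

/-!
# P050: lifts of bipartite graphs against a kernel with nonnegative minors
-/

namespace Vale.Agent.P050

open Finset

/-- All two-by-two minors are nonnegative. -/
def TP2 {X Y : Type*} [Preorder X] [Preorder Y] (W : X → Y → ℝ) : Prop :=
  ∀ ⦃i i' : X⦄ ⦃j j' : Y⦄, i ≤ i' → j ≤ j' → W i j' * W i' j ≤ W i j * W i' j'

lemma TP2.swap {X Y : Type*} [Preorder X] [Preorder Y] {W : X → Y → ℝ} (h : TP2 W) :
    TP2 (fun y x => W x y) := fun j j' i i' hj hi => by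
  have := h hi hj
  linarith

lemma TP2.mul_le_inf_sup {X Y : Type*} [LinearOrder X] [LinearOrder Y] {W : X → Y → ℝ}
    (h : TP2 W) (x x' : X) (y y' : Y) :
    W x y * W x' y' ≤ W (x ⊓ x') (y ⊓ y') * W (x ⊔ x') (y ⊔ y') := by
  rcases le_total x x' with hx | hx <;> rcases le_total y y' with hy | hy <;>
    simp only [inf_eq_left.2, inf_eq_right.2, sup_eq_left.2, sup_eq_right.2, hx, hy]
  · exact le_rfl
  · exact h hx hy
  · rw [mul_comm]; exact h hx hy
  · rw [mul_comm]

/-- The rearrangement inequality for a kernel with nonnegative minors. -/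
lemma rearrange {k : ℕ} {X Y : Type*} [LinearOrder X] [LinearOrder Y] {W : X → Y → ℝ}
    (hW : ∀ x y, 0 ≤ W x y) (h : TP2 W) (α : Fin k → X) (β : Fin k → Y) (hα : Antitone α)
    (hβ : Antitone β) (σ : Equiv.Perm (Fin k)) :
    ∏ i, W (α i) (β (σ i)) ≤ ∏ i, W (α i) (β i) := by
  suffices ∀ (N : ℕ) (σ : Equiv.Perm (Fin k)), σ.support.card ≤ N →
      ∏ i, W (α i) (β (σ i)) ≤ ∏ i, W (α i) (β i) from this _ σ le_rfl
  intro N
  induction N with
  | zero =>
    intro σ hσ
    have : σ = 1 := Equiv.Perm.support_eq_empty_iff.1 (Finset.card_eq_zero.1 (Nat.le_zero.1 hσ))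
    simp [this]
  | succ N ih =>
    intro σ hσ
    by_cases hne : σ.support.Nonempty
    swap
    · exact ih σ (by simp [Finset.not_nonempty_iff_eq_empty.1 hne])
    set i := σ.support.min' hne with hidef
    have hi : σ i ≠ i := Equiv.Perm.mem_support.1 (σ.support.min'_mem hne)
    set l := σ i with hl
    set j := σ.symm i with hj
    have hjs : σ j = i := σ.apply_symm_apply i
    have hji : j ≠ i := fun e => hi (by rw [e] at hjs; exact hjs)
    have hlm : l ∈ σ.support := Equiv.Perm.mem_support.2 fun e => hi (σ.injective e)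
    have hjm : j ∈ σ.support := Equiv.Perm.mem_support.2 (by rw [hjs]; exact hji.symm)
    have hil : i ≤ l := σ.support.min'_le _ hlm
    have hij : i ≤ j := σ.support.min'_le _ hjm
    set σ' := Equiv.swap i l * σ with hσ'
    have hlt : σ'.support.card ≤ N := by
      have hsub : σ'.support ⊂ σ.support := by
        rw [Finset.ssubset_iff_of_subset]
        · exact ⟨i, σ.support.min'_mem hne, by simp [hσ', ← hl]⟩
        · intro x hx
          rw [Equiv.Perm.mem_support] at hx ⊢
          intro hxe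
          apply hx
          have h1 : x ≠ i := fun e => hi (by rw [← e]; rw [e]; rw [e] at hxe; exact hxe)
          have h2 : x ≠ l := fun e => by
            rw [e] at hxe
            exact hi (σ.injective hxe)
          simp [hσ', hxe, Equiv.swap_apply_of_ne_of_ne h1 h2]
      have := Finset.card_lt_card hsub
      omega
    refine le_trans ?_ (ih σ' hlt)
    have hi' : σ' i = i := by simp [hσ', ← hl]
    have hj' : σ' j = l := by simp [hσ', hjs]
    have hrest : ∀ x, x ∈ (univ.erase i).erase j → σ' x = σ x := by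
      intro x hx
      simp only [Finset.mem_erase] at hx
      have h1 : σ x ≠ i := fun e => hx.1 (by rw [hj, ← e, σ.symm_apply_apply])
      have h2 : σ x ≠ l := fun e => hx.2.1 (σ.injective e)
      simp [hσ', Equiv.swap_apply_of_ne_of_ne h1 h2]
    have hjmem : j ∈ univ.erase i := by simp [hji]
    rw [← Finset.mul_prod_erase univ _ (Finset.mem_univ i),
      ← Finset.mul_prod_erase (univ.erase i) _ hjmem,
      ← Finset.mul_prod_erase univ (fun x => W (α x) (β (σ' x))) (Finset.mem_univ i),
      ← Finset.mul_prod_erase (univ.erase i) (fun x => W (α x) (β (σ' x))) hjmem]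
    have hP : ∏ x ∈ (univ.erase i).erase j, W (α x) (β (σ' x)) =
        ∏ x ∈ (univ.erase i).erase j, W (α x) (β (σ x)) :=
      Finset.prod_congr rfl fun x hx => by rw [hrest x hx]
    rw [hP]
    rw [← mul_assoc, ← mul_assoc]
    refine mul_le_mul_of_nonneg_right ?_ (Finset.prod_nonneg fun x _ => hW _ _)
    rw [hi', hj', ← hl, hjs]
    have := h (hα hij) (hβ hil)
    linarith

lemma rearrange_comp {k : ℕ} {X Y : Type*} [LinearOrder X] [LinearOrder Y] {W : X → Y → ℝ}
    (hW : ∀ x y, 0 ≤ W x y) (h : TP2 W) (α : Fin k → X) (β : Fin k → Y) (hα : Antitone α)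
    (hβ : Antitone β) (π ρ : Equiv.Perm (Fin k)) :
    ∏ i, W (α (π i)) (β (ρ i)) ≤ ∏ i, W (α i) (β i) := by
  rw [← Equiv.prod_comp π.symm]
  simp only [Equiv.apply_symm_apply]
  exact rearrange hW h α β hα hβ (π.symm.trans ρ)

lemma LogSM.prod {α ι : Type*} [Lattice α] (s : Finset ι) (F : ι → α → ℝ)
    (h0 : ∀ i x, 0 ≤ F i x) (h : ∀ i, LogSM (F i)) : LogSM fun x => ∏ i ∈ s, F i x := by
  intro x y
  simp only [← Finset.prod_mul_distrib]
  exact Finset.prod_le_prod (fun i _ => mul_nonneg (h0 i x) (h0 i y)) fun i _ => h i x y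

/-- Total weight of maps of a bipartite graph. -/
noncomputable def homW {A B E X Y : Type*} [Fintype A] [Fintype B] [Fintype E] [Fintype X]
    [Fintype Y] [DecidableEq A] [DecidableEq B]
    (s : E → A) (t : E → B) (W : X → Y → ℝ) : ℝ :=
  ∑ f : A → X, ∑ g : B → Y, ∏ e, W (f (s e)) (g (t e))

/-- The weight of a lift is at most a power of the weight of the graph. -/
theorem lift_le {a b m q k : ℕ} {E : Type*} [Fintype E] (s : E → Fin a) (t : E → Fin b)
    (W : Fin (m + 1) → Fin (q + 1) → ℝ) (hW : ∀ x y, 0 < W x y) (h : TP2 W)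
    (σ : E → Equiv.Perm (Fin k)) :
    ∑ f : Fin a → Fin k → Fin (m + 1), ∑ g : Fin b → Fin k → Fin (q + 1),
      ∏ e, ∏ i, W (f (s e) i) (g (t e) (σ e i)) ≤ homW s t W ^ k := by
  set Fl : (Fin a → Fin k → Fin (m + 1)) → (Fin b → Fin k → Fin (q + 1)) → ℝ :=
    fun f g => ∏ e, ∏ i, W (f (s e) i) (g (t e) (σ e i)) with hFl
  have hFlpos : ∀ f g, 0 < Fl f g :=
    fun f g => Finset.prod_pos fun e _ => Finset.prod_pos fun i _ => hW _ _
  have hjoint : ∀ f f' g g', Fl f g * Fl f' g' ≤ Fl (f ⊓ f') (g ⊓ g') * Fl (f ⊔ f') (g ⊔ g') := by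
    intro f f' g g'
    simp only [hFl, ← Finset.prod_mul_distrib]
    refine Finset.prod_le_prod
      (fun e _ => Finset.prod_nonneg fun i _ => (mul_pos (hW _ _) (hW _ _)).le) fun e _ => ?_
    refine Finset.prod_le_prod (fun i _ => (mul_pos (hW _ _) (hW _ _)).le) fun i _ => ?_
    exact h.mul_le_inf_sup _ _ _ _
  rw [Finset.sum_comm]
  set φ : Fin k → (Fin b → Fin (q + 1)) → ℝ :=
    fun _ z => ∑ f : Fin a → Fin (m + 1), ∏ e, W (f (s e)) (z (t e)) with hφ
  have hφpos : ∀ i z, 0 < φ i z :=
    fun i z => Finset.sum_pos (fun f _ => Finset.prod_pos fun e _ => hW _ _) univ_nonempty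
  refine (multi_bound b k q (fun g => ∑ f, Fl f g)
    (fun g => Finset.sum_pos (fun f _ => hFlpos f g) univ_nonempty) ?_ φ hφpos ?_).trans
    (le_of_eq ?_)
  · intro g g'
    exact four_functions_theorem_univ _ _ _ _ (fun f => (hFlpos _ _).le) (fun f => (hFlpos _ _).le)
      (fun f => (hFlpos _ _).le) (fun f => (hFlpos _ _).le) (fun f f' => hjoint f f' g g')
  · intro y hy π
    refine multi_bound a k m (fun f => Fl f fun r => y r ∘ π r) (fun f => hFlpos f fun r => y r ∘ π r) ?_
      (fun i f => ∏ e, W (f (s e)) (y (t e) i))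
      (fun i f => Finset.prod_pos fun e _ => hW _ _) ?_
    · intro f f'
      have := hjoint f f' (fun r => y r ∘ π r) (fun r => y r ∘ π r)
      rwa [inf_idem, sup_idem] at this
    · intro x hx ρ
      simp only [hFl, Function.comp_apply]
      rw [Finset.prod_comm (s := univ) (t := univ) (f := fun i e => W (x (s e) i) (y (t e) i))]
      refine Finset.prod_le_prod (fun e _ => Finset.prod_nonneg fun i _ => (hW _ _).le)
        fun e _ => ?_
      exact rearrange_comp (fun x y => (hW x y).le) h _ _ (hx _) (hy _) (ρ (s e))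
        ((σ e).trans (π (t e)))
  · simp only [hφ, Finset.prod_const, Finset.card_univ, Fintype.card_fin, homW]
    rw [Finset.sum_comm]

end Vale.Agent.P050
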