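import Mathlib
import Vale.Agent.P050.Lift

/-!
# P050: averaging over lifts by type counting
-/

namespace Vale.Agent.P050

open Finset Filter Topology
open scoped Nat

variable {Z : Type*} [Fintype Z] [DecidableEq Z] {k : ℕ}

/-- Number of occurrences of a value. -/
def cnt (f : Fin k → Z) (z : Z) : ℕ := (univ.filter fun i => f i = z).card

/-- All sequences with prescribed occurrence numbers. -/
def cls (k : ℕ) (N : Z → ℕ) : Finset (Fin k → Z) := univ.filter fun f => ∀ z, cnt f z = N z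

lemma mem_cls {N : Z → ℕ} {f : Fin k → Z} : f ∈ cls k N ↔ ∀ z, cnt f z = N z := by
  simp [cls]

lemma cnt_comp (f : Fin k → Z) (σ : Equiv.Perm (Fin k)) (z : Z) : cnt (f ∘ σ) z = cnt f z := by
  have : (univ.filter fun i => f i = z) =
      (univ.filter fun i => (f ∘ σ) i = z).map σ.toEmbedding := by
    ext x; simp [Finset.mem_map_equiv]
  simp only [cnt, this, Finset.card_map]

lemma sum_cnt (f : Fin k → Z) : ∑ z, cnt f z = k := by
  have h := Finset.card_eq_sum_card_fiberwise (s := (univ : Finset (Fin k))) (t := univ) (f := f)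
    (fun x _ => Finset.mem_univ (f x))
  simpa [cnt] using h.symm

lemma exists_mem_cls {N : Z → ℕ} (hN : ∑ z, N z = k) : ∃ f : Fin k → Z, f ∈ cls k N := by
  let e : Fin k ≃ Σ z, Fin (N z) := (Fintype.equivFinOfCardEq (by simp [hN])).symm
  refine ⟨fun i => (e i).1, mem_cls.2 fun z => ?_⟩
  have : (univ.filter fun i => (e i).1 = z) =
      (univ : Finset (Fin (N z))).map ⟨fun u => e.symm ⟨z, u⟩, fun u v h => by
        simpa using e.symm.injective h⟩ := by
    ext i
    simp only [Finset.mem_filter, Finset.mem_univ, true_and, Finset.mem_map,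
      Function.Embedding.coeFn_mk]
    constructor
    · intro h
      rcases hei : e i with ⟨z', u⟩
      rw [hei] at h
      subst h
      exact ⟨u, (Equiv.symm_apply_eq e).2 hei.symm⟩
    · rintro ⟨u, rfl⟩
      exact congrArg Sigma.fst (e.apply_symm_apply _)
  simp [cnt, this]

lemma exists_perm {N : Z → ℕ} {f g : Fin k → Z} (hf : f ∈ cls k N) (hg : g ∈ cls k N) :
    ∃ σ : Equiv.Perm (Fin k), f ∘ σ = g := by
  have he : ∀ z, Nonempty ({i // g i = z} ≃ {i // f i = z}) := fun z =>
    ⟨Fintype.equivOfCardEq (by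
      rw [Fintype.card_subtype, Fintype.card_subtype]
      exact (mem_cls.1 hg z).trans (mem_cls.1 hf z).symm)⟩
  exact ⟨Equiv.ofFiberEquiv fun z => (he z).some,
    funext fun i => Equiv.ofFiberEquiv_map _ i⟩

lemma card_perm_eq {N : Z → ℕ} {f g : Fin k → Z} (hf : f ∈ cls k N) (hg : g ∈ cls k N) :
    (univ.filter fun σ : Equiv.Perm (Fin k) => f ∘ σ = g).card = ∏ z, (N z)! := by
  obtain ⟨σ₀, hσ₀⟩ := exists_perm hf hg
  have h1 : (univ.filter fun σ : Equiv.Perm (Fin k) => f ∘ σ = g).card =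
      (univ.filter fun σ : Equiv.Perm (Fin k) => f ∘ σ = f).card := by
    refine Finset.card_equiv (Equiv.mulRight σ₀⁻¹) fun σ => ?_
    simp only [Finset.mem_filter, Finset.mem_univ, true_and, Equiv.coe_mulRight,
      Equiv.Perm.coe_mul]
    constructor
    · intro h
      rw [← Function.comp_assoc, h, ← hσ₀]
      funext x; simp
    · intro h
      rw [← hσ₀]
      conv_rhs => rw [← h]
      funext x; simp
  rw [h1, ← Fintype.card_subtype, DomMulAct.stabilizer_card]
  refine Finset.prod_congr rfl fun z _ => ?_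
  rw [Fintype.card_subtype]
  exact congrArg Nat.factorial (mem_cls.1 hf z)

lemma card_cls_mul {N : Z → ℕ} (hN : ∑ z, N z = k) :
    (cls k N).card * ∏ z, (N z)! = k ! := by
  obtain ⟨f, hf⟩ := exists_mem_cls hN
  have h := Finset.card_eq_sum_card_fiberwise (s := (univ : Finset (Equiv.Perm (Fin k))))
    (t := cls k N) (f := fun σ : Equiv.Perm (Fin k) => f ∘ σ)
    (fun σ _ => mem_cls.2 fun z => (cnt_comp f σ z).trans (mem_cls.1 hf z))
  rw [Finset.card_univ, Fintype.card_perm, Fintype.card_fin] at h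
  rw [h, Finset.sum_congr rfl fun g hg => card_perm_eq hf hg]
  simp

lemma prod_comp_eq {R : Type*} [CommMonoid R] (f : Fin k → Z) (w : Z → R) :
    ∏ i, w (f i) = ∏ z, w z ^ cnt f z := by
  rw [← Finset.prod_fiberwise univ f]
  refine Finset.prod_congr rfl fun z _ => ?_
  rw [Finset.prod_congr rfl fun i hi => by rw [(Finset.mem_filter.1 hi).2],
    Finset.prod_const]
  rfl

lemma factorial_mul_pow_le (N M : ℕ) : N ! * N ^ M ≤ M ! * N ^ N := by
  rcases le_total N M with h | h
  · calc N ! * N ^ M = N ! * N ^ (M - N) * N ^ N := by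
          rw [mul_assoc, ← pow_add, Nat.sub_add_cancel h]
      _ ≤ M ! * N ^ N := Nat.mul_le_mul_right _ (Nat.factorial_mul_pow_sub_le_factorial h)
  · have h1 := Nat.factorial_mul_descFactorial (Nat.sub_le N M)
    rw [Nat.sub_sub_self h] at h1
    calc N ! * N ^ M = M ! * N.descFactorial (N - M) * N ^ M := by rw [h1]
      _ ≤ M ! * N ^ (N - M) * N ^ M :=
          Nat.mul_le_mul_right _ (Nat.mul_le_mul_left _ (Nat.descFactorial_le_pow _ _))
      _ = M ! * N ^ N := by rw [mul_assoc, ← pow_add, Nat.sub_add_cancel h]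

lemma cls_lower (N : Z → ℕ) (hN : ∑ z, N z = k) :
    k ^ k ≤ (k + 1) ^ Fintype.card Z * ((cls k N).card * ∏ z, N z ^ N z) := by
  have hmax : ∀ M : Z → Fin (k + 1),
      ∑ f ∈ univ.filter (fun f : Fin k → Z => (fun z => Fin.ofNat (k + 1) (cnt f z)) = M),
        ∏ i, N (f i) ≤ (cls k N).card * ∏ z, N z ^ N z := by
    intro M
    set M' : Z → ℕ := fun z => (M z : ℕ) with hM'
    have hsub : univ.filter (fun f : Fin k → Z => (fun z => Fin.ofNat (k + 1) (cnt f z)) = M) ⊆
        cls k M' := by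
      intro f hf
      simp only [Finset.mem_filter, Finset.mem_univ, true_and] at hf
      refine mem_cls.2 fun z => ?_
      have hlt : cnt f z < k + 1 := by
        have := Finset.single_le_sum (fun z _ => Nat.zero_le (cnt f z)) (Finset.mem_univ z)
        rw [sum_cnt] at this
        omega
      rw [hM', ← hf]
      simp [Nat.mod_eq_of_lt hlt]
    refine (Finset.sum_le_sum_of_subset hsub).trans ?_
    by_cases hne : (cls k M').Nonempty
    swap
    · simp [Finset.not_nonempty_iff_eq_empty.1 hne]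
    obtain ⟨f₀, hf₀⟩ := hne
    have hMsum : ∑ z, M' z = k := by
      rw [← sum_cnt f₀]; exact Finset.sum_congr rfl fun z _ => (mem_cls.1 hf₀ z).symm
    have hconst : ∀ f ∈ cls k M', ∏ i, N (f i) = ∏ z, N z ^ M' z := by
      intro f hf
      rw [prod_comp_eq]; exact Finset.prod_congr rfl fun z _ => by rw [mem_cls.1 hf z]
    rw [Finset.sum_congr rfl hconst, Finset.sum_const, smul_eq_mul]
    refine Nat.le_of_mul_le_mul_right ?_
      (Finset.prod_pos fun z _ => Nat.factorial_pos (M' z) : 0 < ∏ z, (M' z)!)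
    refine Nat.le_of_mul_le_mul_right ?_
      (Finset.prod_pos fun z _ => Nat.factorial_pos (N z) : 0 < ∏ z, (N z)!)
    calc (cls k M').card * (∏ z, N z ^ M' z) * (∏ z, (M' z)!) * (∏ z, (N z)!)
        = ((cls k M').card * ∏ z, (M' z)!) * ∏ z, ((N z)! * N z ^ M' z) := by
          rw [Finset.prod_mul_distrib]; ring
      _ ≤ ((cls k N).card * ∏ z, (N z)!) * ∏ z, ((M' z)! * N z ^ N z) := by
          rw [card_cls_mul hMsum, card_cls_mul hN]
          exact Nat.mul_le_mul_left _ (Finset.prod_le_prod' fun z _ => factorial_mul_pow_le _ _)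
      _ = _ := by rw [Finset.prod_mul_distrib]; ring
  have hk : k ^ k = ∑ f : Fin k → Z, ∏ i, N (f i) := by
    rw [← Fintype.sum_pow, hN]
  rw [hk, ← Finset.sum_fiberwise univ (fun f : Fin k → Z => fun z => Fin.ofNat (k + 1) (cnt f z))]
  refine (Finset.sum_le_sum fun M _ => hmax M).trans (le_of_eq ?_)
  simp

variable {X Y : Type*} [Fintype X] [Fintype Y] [DecidableEq X] [DecidableEq Y]

/-- Weight of a prescribed type. -/
noncomputable def typeW (k : ℕ) (W : X → Y → ℝ) (N : X × Y → ℕ) : ℝ :=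
  (cls k N).card * ∏ z : X × Y, W z.1 z.2 ^ N z

lemma cnt_fst (h : Fin k → X × Y) (x : X) : cnt (fun i => (h i).1) x = ∑ y, cnt h (x, y) := by
  unfold cnt
  rw [Finset.card_eq_sum_card_fiberwise (t := (univ : Finset Y)) (f := fun i => (h i).2)
    (fun i _ => Finset.mem_univ _)]
  refine Finset.sum_congr rfl fun y _ => ?_
  congr 1; ext i; simp [Prod.ext_iff]

lemma cnt_snd (h : Fin k → X × Y) (y : Y) : cnt (fun i => (h i).2) y = ∑ x, cnt h (x, y) := by
  unfold cnt
  rw [Finset.card_eq_sum_card_fiberwise (t := (univ : Finset X)) (f := fun i => (h i).1)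
    (fun i _ => Finset.mem_univ _)]
  refine Finset.sum_congr rfl fun x _ => ?_
  congr 1; ext i; simp [Prod.ext_iff, and_comm]

lemma perm_sum_lower (W : X → Y → ℝ) (hW : ∀ x y, 0 ≤ W x y) (N : X × Y → ℕ)
    (hN : ∑ z, N z = k) {R : X → ℕ} {C : Y → ℕ} (hR : R = fun x => ∑ y, N (x, y))
    (hC : C = fun y => ∑ x, N (x, y)) {f : Fin k → X} {g : Fin k → Y}
    (hf : f ∈ cls k R) (hg : g ∈ cls k C) :
    (k ! : ℝ) * typeW k W N ≤
      (∑ σ : Equiv.Perm (Fin k), ∏ i, W (f i) (g (σ i))) *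
        ((cls k R).card * (cls k C).card) := by
  set D : (Fin k → X) → Finset (Fin k → Y) :=
    fun f' => univ.filter fun g' => (fun i => (f' i, g' i)) ∈ cls k N with hD
  have hDC : ∀ f' g', g' ∈ D f' → f' ∈ cls k R ∧ g' ∈ cls k C := by
    intro f' g' h
    simp only [hD, Finset.mem_filter, Finset.mem_univ, true_and] at h
    constructor
    · refine mem_cls.2 fun x => ?_
      rw [hR]
      exact (cnt_fst (fun i => (f' i, g' i)) x).trans
        (Finset.sum_congr rfl fun y _ => mem_cls.1 h _)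
    · refine mem_cls.2 fun y => ?_
      rw [hC]
      exact (cnt_snd (fun i => (f' i, g' i)) y).trans
        (Finset.sum_congr rfl fun x _ => mem_cls.1 h _)
  have hDeq : ∀ f' ∈ cls k R, (D f').card = (D f).card := by
    intro f' hf'
    obtain ⟨σ, hσ⟩ := exists_perm hf hf'
    symm
    refine Finset.card_equiv (Equiv.arrowCongr σ.symm (Equiv.refl Y)) fun g' => ?_
    simp only [hD, Finset.mem_filter, Finset.mem_univ, true_and, Equiv.arrowCongr_apply,
      Equiv.symm_symm, Equiv.coe_refl, Function.id_comp, mem_cls, ← hσ]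
    refine forall_congr' fun z => ?_
    rw [show (fun i => ((f ∘ σ) i, (g' ∘ σ) i)) = (fun i => (f i, g' i)) ∘ σ from rfl, cnt_comp]
  have hcard : (cls k R).card * (D f).card = (cls k N).card := by
    rw [Finset.card_eq_sum_card_fiberwise (s := cls k N) (t := cls k R)
      (f := fun h i => (h i).1) (fun h hh => ?_)]
    · rw [← smul_eq_mul, ← Finset.sum_const]
      refine Finset.sum_congr rfl fun f' hf' => ?_
      rw [← hDeq f' hf']
      refine Finset.card_bij (fun g' _ => fun i => (f' i, g' i)) ?_ ?_ ?_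
      · intro g' h
        simp only [hD, Finset.mem_filter, Finset.mem_univ, true_and] at h
        simp [h]
      · intro a _ b _ h
        funext i
        exact congrArg Prod.snd (congrFun h i)
      · intro h hh
        simp only [Finset.mem_filter] at hh
        refine ⟨fun i => (h i).2, ?_, ?_⟩
        · simp only [hD, Finset.mem_filter, Finset.mem_univ, true_and, ← hh.2]
          exact hh.1
        · rw [← hh.2]
    · refine mem_cls.2 fun x => ?_
      rw [hR]
      exact (cnt_fst h x).trans (Finset.sum_congr rfl fun y _ => mem_cls.1 hh _)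
  have hWn : ∀ g' ∈ D f, ∏ i, W (f i) (g' i) = ∏ z : X × Y, W z.1 z.2 ^ N z := by
    intro g' h
    simp only [hD, Finset.mem_filter, Finset.mem_univ, true_and] at h
    rw [prod_comp_eq (fun i => (f i, g' i)) (fun z => W z.1 z.2)]
    exact Finset.prod_congr rfl fun z _ => by rw [mem_cls.1 h z]
  set P : ℕ := ∏ y, (C y)! with hP
  have hsigma : ((P * (D f).card : ℕ) : ℝ) * (∏ z : X × Y, W z.1 z.2 ^ N z) ≤
      ∑ σ : Equiv.Perm (Fin k), ∏ i, W (f i) (g (σ i)) := by
    calc ((P * (D f).card : ℕ) : ℝ) * ∏ z : X × Y, W z.1 z.2 ^ N z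
        = ∑ g' ∈ D f, ∑ σ ∈ univ.filter (fun σ : Equiv.Perm (Fin k) => g ∘ σ = g'),
            ∏ i, W (f i) (g (σ i)) := by
          rw [Nat.cast_mul, mul_assoc, mul_left_comm, ← nsmul_eq_mul, ← Finset.sum_const]
          refine Finset.sum_congr rfl fun g' hg' => ?_
          rw [Finset.sum_congr rfl fun σ hσ => ?_, Finset.sum_const,
            card_perm_eq hg (hDC f g' hg').2, ← hP, nsmul_eq_mul]
          rw [← hWn g' hg', ← (Finset.mem_filter.1 hσ).2]
          rfl
      _ ≤ ∑ g', ∑ σ ∈ univ.filter (fun σ : Equiv.Perm (Fin k) => g ∘ σ = g'),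
            ∏ i, W (f i) (g (σ i)) :=
          Finset.sum_le_univ_sum_of_nonneg fun g' =>
            Finset.sum_nonneg fun σ _ => Finset.prod_nonneg fun i _ => hW _ _
      _ = _ := Finset.sum_fiberwise univ (fun σ : Equiv.Perm (Fin k) => g ∘ σ) _
  have hCk : ∑ y, C y = k := by
    rw [hC, Finset.sum_comm, ← Fintype.sum_prod_type, hN]
  refine le_trans (le_of_eq ?_)
    (mul_le_mul_of_nonneg_right hsigma (by positivity))
  rw [typeW, ← card_cls_mul hCk, ← hcard, ← hP]
  push_cast
  ring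

lemma card_cls_le (R : X → ℕ) : (cls k R).card ≤ Fintype.card X ^ k := by
  refine (Finset.card_le_univ _).trans (le_of_eq ?_)
  simp

lemma fibre_bound {V : Type*} [Fintype V] [DecidableEq V] {E : Type*} [Fintype E] (s : E → V)
    (c M : ℕ) (hc : c ≤ M) :
    c ^ Fintype.card E * M ^ Fintype.card V ≤
      (∏ v, if ∃ e, s e = v then c else M) * M ^ Fintype.card E := by
  have h1 : ∀ x : ℕ, x ^ Fintype.card E = ∏ v, x ^ (univ.filter fun e => s e = v).card := by
    intro x
    rw [Finset.prod_pow_eq_pow_sum, ← Finset.card_eq_sum_card_fiberwise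
      (fun e _ => Finset.mem_univ (s e))]
    simp
  rw [h1 c, h1 M, ← Finset.card_univ (α := V), ← Finset.prod_const, ← Finset.prod_mul_distrib,
    ← Finset.prod_mul_distrib]
  refine Finset.prod_le_prod' fun v _ => ?_
  by_cases h : ∃ e, s e = v
  · rw [if_pos h]
    obtain ⟨e, he⟩ := h
    obtain ⟨d, hd⟩ : ∃ d, (univ.filter fun e => s e = v).card = d + 1 :=
      Nat.exists_eq_add_one.2 (Finset.card_pos.2 ⟨e, by simp [he]⟩)
    rw [hd, pow_succ, pow_succ]
    calc c ^ d * c * M ≤ M ^ d * c * M := by gcongr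
      _ = c * (M ^ d * M) := by ring
  · rw [if_neg h]
    have : (univ.filter fun e => s e = v) = ∅ := by
      ext e; simp only [Finset.mem_filter, Finset.mem_univ, true_and, Finset.notMem_empty,
        iff_false]
      exact fun he => h ⟨e, he⟩
    simp [this]

variable {A B E : Type*} [Fintype A] [Fintype B] [Fintype E] [DecidableEq A] [DecidableEq B]
  [DecidableEq E]

/-- Admissible labellings with prescribed type at non-isolated vertices. -/
noncomputable def admissible {V : Type*} [Fintype V] [DecidableEq V] (s : E → V) (k : ℕ)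
    (R : X → ℕ) : Finset (V → Fin k → X) :=
  Fintype.piFinset fun a => if ∃ e, s e = a then cls k R else univ

lemma admissible_mem {V : Type*} [Fintype V] [DecidableEq V] {s : E → V} {R : X → ℕ}
    {f : V → Fin k → X} (hf : f ∈ admissible s k R) (e : E) : f (s e) ∈ cls k R := by
  have := Fintype.mem_piFinset.1 hf (s e)
  rwa [if_pos ⟨e, rfl⟩] at this

lemma admissible_bound {V : Type*} [Fintype V] [DecidableEq V] (s : E → V) (k : ℕ)
    (R : X → ℕ) :
    (((cls k R).card : ℝ)) ^ Fintype.card E * ((Fintype.card X : ℝ) ^ k) ^ Fintype.card V ≤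
      (admissible s k R).card * ((Fintype.card X : ℝ) ^ k) ^ Fintype.card E := by
  have hA := fibre_bound s (cls k R).card (Fintype.card X ^ k) (card_cls_le R)
  have hAc : (admissible s k R).card =
      ∏ v, if ∃ e, s e = v then (cls k R).card else Fintype.card X ^ k := by
    simp only [admissible, Fintype.card_piFinset, apply_ite Finset.card, Finset.card_univ,
      Fintype.card_fun, Fintype.card_fin]
  rw [← hAc] at hA
  exact_mod_cast hA

lemma lift_sum_bound (s : E → A) (t : E → B) (W : X → Y → ℝ) (hW : ∀ x y, 0 ≤ W x y) (L : ℝ)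
    (hlift : ∀ σ : E → Equiv.Perm (Fin k),
      ∑ f : A → Fin k → X, ∑ g : B → Fin k → Y, ∏ e, ∏ i, W (f (s e) i) (g (t e) (σ e i)) ≤ L)
    (DA : Finset (A → Fin k → X)) (DB : Finset (B → Fin k → Y)) :
    ∑ f ∈ DA, ∑ g ∈ DB, (∏ e, ∑ σ : Equiv.Perm (Fin k), ∏ i, W (f (s e) i) (g (t e) (σ i))) ≤
      (k ! : ℝ) ^ Fintype.card E * L := by
  have h0 : ∀ (f : A → Fin k → X) (g : B → Fin k → Y),
      0 ≤ ∏ e, ∑ σ : Equiv.Perm (Fin k), ∏ i, W (f (s e) i) (g (t e) (σ i)) :=
    fun f g => Finset.prod_nonneg fun e _ => Finset.sum_nonneg fun σ _ =>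
      Finset.prod_nonneg fun i _ => hW _ _
  calc _ ≤ ∑ f : A → Fin k → X, ∑ g : B → Fin k → Y,
        ∏ e, ∑ σ : Equiv.Perm (Fin k), ∏ i, W (f (s e) i) (g (t e) (σ i)) :=
        (Finset.sum_le_univ_sum_of_nonneg fun f => Finset.sum_nonneg fun g _ => h0 f g).trans
          (Finset.sum_le_sum fun f _ => Finset.sum_le_univ_sum_of_nonneg (h0 f))
    _ = ∑ f : A → Fin k → X, ∑ g : B → Fin k → Y, ∑ σ : E → Equiv.Perm (Fin k),
        ∏ e, ∏ i, W (f (s e) i) (g (t e) (σ e i)) :=
        Finset.sum_congr rfl fun f _ => Finset.sum_congr rfl fun g _ => Fintype.prod_sum _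
    _ = ∑ σ : E → Equiv.Perm (Fin k), ∑ f : A → Fin k → X, ∑ g : B → Fin k → Y,
        ∏ e, ∏ i, W (f (s e) i) (g (t e) (σ e i)) :=
        (Finset.sum_congr rfl fun f _ => Finset.sum_comm).trans Finset.sum_comm
    _ ≤ ∑ _σ : E → Equiv.Perm (Fin k), L := Finset.sum_le_sum fun σ _ => hlift σ
    _ = (k ! : ℝ) ^ Fintype.card E * L := by simp [Fintype.card_perm]

lemma one_type_bound (s : E → A) (t : E → B) (W : X → Y → ℝ) (hW : ∀ x y, 0 ≤ W x y)
    (hlift : ∀ σ : E → Equiv.Perm (Fin k),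
      ∑ f : A → Fin k → X, ∑ g : B → Fin k → Y, ∏ e, ∏ i, W (f (s e) i) (g (t e) (σ e i)) ≤
        homW s t W ^ k)
    (N : X × Y → ℕ) (hN : ∑ z, N z = k) :
    typeW k W N ^ Fintype.card E *
        ((Fintype.card X : ℝ) ^ Fintype.card A * (Fintype.card Y : ℝ) ^ Fintype.card B) ^ k ≤
      (homW s t W * ((Fintype.card X : ℝ) * Fintype.card Y) ^ Fintype.card E) ^ k := by
  set R : X → ℕ := fun x => ∑ y, N (x, y) with hR
  set C : Y → ℕ := fun y => ∑ x, N (x, y) with hC
  set cR : ℝ := ((cls k R).card : ℝ) with hcR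
  set cC : ℝ := ((cls k C).card : ℝ) with hcC
  set nA : ℝ := ((admissible s k R).card : ℝ) with hnA
  set nB : ℝ := ((admissible t k C).card : ℝ) with hnB
  set Q := typeW k W N with hQ
  have hQ0 : 0 ≤ Q :=
    mul_nonneg (Nat.cast_nonneg _) (Finset.prod_nonneg fun z _ => pow_nonneg (hW _ _) _)
  have hterm : ∀ f ∈ admissible s k R, ∀ g ∈ admissible t k C,
      ((k ! : ℝ) * Q) ^ Fintype.card E ≤
      (∏ e, ∑ σ : Equiv.Perm (Fin k), ∏ i, W (f (s e) i) (g (t e) (σ i))) *
        (cR * cC) ^ Fintype.card E := by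
    intro f hf g hg
    rw [← Finset.card_univ, ← Finset.prod_const, ← Finset.prod_const, ← Finset.prod_mul_distrib]
    exact Finset.prod_le_prod (fun e _ => mul_nonneg (Nat.cast_nonneg _) hQ0) fun e _ =>
      perm_sum_lower W hW N hN hR hC (admissible_mem hf e) (admissible_mem hg e)
  have hmain : nA * nB * ((k ! : ℝ) * Q) ^ Fintype.card E ≤
      (k ! : ℝ) ^ Fintype.card E * homW s t W ^ k * (cR * cC) ^ Fintype.card E := by
    calc nA * nB * ((k ! : ℝ) * Q) ^ Fintype.card E
        = ∑ _f ∈ admissible s k R, ∑ _g ∈ admissible t k C,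
            ((k ! : ℝ) * Q) ^ Fintype.card E := by
          simp [hnA, hnB, mul_assoc]
      _ ≤ ∑ f ∈ admissible s k R, ∑ g ∈ admissible t k C,
          (∏ e, ∑ σ : Equiv.Perm (Fin k), ∏ i, W (f (s e) i) (g (t e) (σ i))) *
            (cR * cC) ^ Fintype.card E :=
          Finset.sum_le_sum fun f hf => Finset.sum_le_sum fun g hg => hterm f hf g hg
      _ ≤ _ := by
          simp only [← Finset.sum_mul]
          exact mul_le_mul_of_nonneg_right (lift_sum_bound s t W hW _ hlift _ _) (by positivity)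
  have hkf : (0 : ℝ) < (k ! : ℝ) ^ Fintype.card E := by positivity
  have hmain' : nA * nB * Q ^ Fintype.card E ≤
      homW s t W ^ k * (cR * cC) ^ Fintype.card E := by
    refine le_of_mul_le_mul_left ?_ hkf
    calc _ = nA * nB * ((k ! : ℝ) * Q) ^ Fintype.card E := by ring
      _ ≤ _ := hmain
      _ = _ := by ring
  have hA := admissible_bound s k R
  have hB := admissible_bound t k C
  have hR0 : 0 < (cR * cC) ^ Fintype.card E := by
    have h1 : ∑ x, R x = k := by rw [hR, ← Fintype.sum_prod_type, hN]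
    have h2 : ∑ y, C y = k := by rw [hC, Finset.sum_comm, ← Fintype.sum_prod_type, hN]
    have p1 : 0 < cR := Nat.cast_pos.2 (Finset.card_pos.2 (exists_mem_cls h1))
    have p2 : 0 < cC := Nat.cast_pos.2 (Finset.card_pos.2 (exists_mem_cls h2))
    positivity
  refine le_of_mul_le_mul_left ?_ hR0
  calc (cR * cC) ^ Fintype.card E * (Q ^ Fintype.card E *
        ((Fintype.card X : ℝ) ^ Fintype.card A * (Fintype.card Y : ℝ) ^ Fintype.card B) ^ k)
      = (cR ^ Fintype.card E * ((Fintype.card X : ℝ) ^ k) ^ Fintype.card A) *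
        (cC ^ Fintype.card E * ((Fintype.card Y : ℝ) ^ k) ^ Fintype.card B) *
          Q ^ Fintype.card E := by ring
    _ ≤ (nA * ((Fintype.card X : ℝ) ^ k) ^ Fintype.card E) *
        (nB * ((Fintype.card Y : ℝ) ^ k) ^ Fintype.card E) * Q ^ Fintype.card E := by
        gcongr
    _ = ((Fintype.card X : ℝ) * Fintype.card Y) ^ (Fintype.card E * k) *
        (nA * nB * Q ^ Fintype.card E) := by ring
    _ ≤ ((Fintype.card X : ℝ) * Fintype.card Y) ^ (Fintype.card E * k) *
        (homW s t W ^ k * (cR * cC) ^ Fintype.card E) := by gcongr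
    _ = _ := by ring

/-- The lift inequality implies the density inequality. -/
theorem types_bound (s : E → A) (t : E → B) (W : X → Y → ℝ) (hW : ∀ x y, 0 ≤ W x y)
    (hlift : ∀ (k : ℕ) (σ : E → Equiv.Perm (Fin k)),
      ∑ f : A → Fin k → X, ∑ g : B → Fin k → Y, ∏ e, ∏ i, W (f (s e) i) (g (t e) (σ e i)) ≤
        homW s t W ^ k) :
    (∑ x, ∑ y, W x y) ^ Fintype.card E *
        ((Fintype.card X : ℝ) ^ Fintype.card A * (Fintype.card Y : ℝ) ^ Fintype.card B) ≤
      homW s t W * ((Fintype.card X : ℝ) * Fintype.card Y) ^ Fintype.card E := by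
  set S := ∑ x, ∑ y, W x y with hS
  set M := (Fintype.card X : ℝ) ^ Fintype.card A * (Fintype.card Y : ℝ) ^ Fintype.card B with hM
  set V := homW s t W * ((Fintype.card X : ℝ) * Fintype.card Y) ^ Fintype.card E with hV
  by_contra hlt
  rw [not_le] at hlt
  have hV0 : 0 ≤ V := mul_nonneg (Finset.sum_nonneg fun f _ => Finset.sum_nonneg fun g _ =>
    Finset.prod_nonneg fun e _ => hW _ _) (by positivity)
  set E' := Fintype.card E with hE'
  have hS0 : 0 ≤ S := Finset.sum_nonneg fun x _ => Finset.sum_nonneg fun y _ => hW x y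
  obtain ⟨c, hc0, hcS, hc⟩ : ∃ c, 0 ≤ c ∧ (S ≤ 0 ∨ c < S) ∧ V < c ^ E' * M := by
    rcases hS0.eq_or_lt with h | h
    · exact ⟨S, hS0, Or.inl h.symm.le, hlt⟩
    · have hev : ∀ᶠ c in 𝓝[<] S, 0 ≤ c ∧ c < S ∧ V < c ^ E' * M := by
        have h1 : ∀ᶠ c in 𝓝[<] S, c < S := self_mem_nhdsWithin
        have h2 : ∀ᶠ c in 𝓝[<] S, (0 : ℝ) ≤ c :=
          ((eventually_gt_nhds h).filter_mono nhdsWithin_le_nhds).mono fun _ hx => hx.le
        have h3 : ∀ᶠ c in 𝓝[<] S, V < c ^ E' * M :=
          (((continuous_pow E').mul continuous_const).continuousAt.eventually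
            (eventually_gt_nhds hlt)).filter_mono nhdsWithin_le_nhds
        filter_upwards [h1, h2, h3] with c hc1 hc2 hc3 using ⟨hc2, hc1, hc3⟩
      obtain ⟨c, h1, h2, h3⟩ := hev.exists
      exact ⟨c, h1, Or.inr h2, h3⟩
  set q := Fintype.card (X × Y) with hq
  have hkey : ∀ T : ℕ, 0 < T → c * T ≤ (∑ z : X × Y, (⌊(T : ℝ) * W z.1 z.2⌋₊ : ℝ)) →
      (c ^ E' * M) ^ (∑ z : X × Y, ⌊(T : ℝ) * W z.1 z.2⌋₊) ≤
        (((∑ z : X × Y, ⌊(T : ℝ) * W z.1 z.2⌋₊ : ℕ) : ℝ) + 1) ^ (q * E') *
          V ^ (∑ z : X × Y, ⌊(T : ℝ) * W z.1 z.2⌋₊) := by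
    intro T hT hcT
    set N : X × Y → ℕ := fun z => ⌊(T : ℝ) * W z.1 z.2⌋₊ with hN
    set k := ∑ z, N z with hk
    have h1 := one_type_bound s t W hW (hlift k) N hk.symm
    have h2 := cls_lower N hk.symm
    have hTk : c ^ k ≤ ((k : ℝ) + 1) ^ q * typeW k W N := by
      refine le_of_mul_le_mul_left ?_ (by positivity : (0 : ℝ) < (T : ℝ) ^ k)
      calc (T : ℝ) ^ k * c ^ k = (c * T) ^ k := by ring
        _ ≤ (k : ℝ) ^ k := by
            refine pow_le_pow_left₀ (by positivity) ?_ k
            simpa [hk, hN] using hcT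
        _ ≤ ((k : ℝ) + 1) ^ q * ((cls k N).card * ∏ z, (N z : ℝ) ^ N z) := by exact_mod_cast h2
        _ ≤ ((k : ℝ) + 1) ^ q * ((cls k N).card * ∏ z : X × Y, ((T : ℝ) * W z.1 z.2) ^ N z) := by
            refine mul_le_mul_of_nonneg_left (mul_le_mul_of_nonneg_left ?_ (by positivity))
              (by positivity)
            exact Finset.prod_le_prod (fun z _ => by positivity) fun z _ =>
              pow_le_pow_left₀ (by positivity)
                (Nat.floor_le (mul_nonneg (Nat.cast_nonneg _) (hW _ _))) _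
        _ = (T : ℝ) ^ k * (((k : ℝ) + 1) ^ q * typeW k W N) := by
            simp only [mul_pow, Finset.prod_mul_distrib, Finset.prod_pow_eq_pow_sum, typeW, ← hk]
            ring
    calc (c ^ E' * M) ^ k = (c ^ k) ^ E' * M ^ k := by ring
      _ ≤ (((k : ℝ) + 1) ^ q * typeW k W N) ^ E' * M ^ k := by
          gcongr
      _ = ((k : ℝ) + 1) ^ (q * E') * (typeW k W N ^ E' * M ^ k) := by ring
      _ ≤ ((k : ℝ) + 1) ^ (q * E') * V ^ k := by gcongr
  have hrmain : ∀ K : ℕ, ∃ k ≥ K, (c ^ E' * M) ^ k ≤ ((k : ℝ) + 1) ^ (q * E') * V ^ k := by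
    intro K
    rcases hcS with h | h
    · have hc' := hlift 0
      refine ⟨K, le_rfl, ?_⟩
      exfalso
      have hSz : S = 0 := le_antisymm h hS0
      rcases Nat.eq_zero_or_pos E' with hE | hE
      · rw [hE, pow_zero, one_mul] at hc
        have : IsEmpty E := Fintype.card_eq_zero_iff.1 hE
        have : homW s t W = M := by simp [homW, hM]
        simp only [hV, this, hE, pow_zero, mul_one] at hc
        exact lt_irrefl _ hc
      · rw [hSz, zero_pow hE.ne', zero_mul] at hlt
        linarith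
    · have hq' : ∀ T : ℕ, (T : ℝ) * S - q ≤ ∑ z : X × Y, (⌊(T : ℝ) * W z.1 z.2⌋₊ : ℝ) := by
        intro T
        have : ∑ z : X × Y, ((T : ℝ) * W z.1 z.2 - 1) ≤
            ∑ z : X × Y, (⌊(T : ℝ) * W z.1 z.2⌋₊ : ℝ) :=
          Finset.sum_le_sum fun z _ => (Nat.sub_one_lt_floor _).le
        refine le_trans (le_of_eq ?_) this
        rw [Finset.sum_sub_distrib, ← Finset.mul_sum, hS, Fintype.sum_prod_type]
        simp [hq]
      obtain ⟨T, hT⟩ := exists_nat_gt (((K : ℝ) + q + 1) / (S - c) + ((K : ℝ) + q + 1) / S)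
      have hSpos : 0 < S := lt_of_le_of_lt hc0 h
      have ha : ((K : ℝ) + q + 1) / (S - c) < T :=
        lt_of_le_of_lt (le_add_of_nonneg_right (by positivity)) hT
      have hb : ((K : ℝ) + q + 1) / S < T :=
        lt_of_le_of_lt (le_add_of_nonneg_left (div_nonneg (by positivity) (by linarith))) hT
      rw [div_lt_iff₀ (sub_pos.2 h)] at ha
      rw [div_lt_iff₀ hSpos] at hb
      have hTpos : 0 < T := by
        rcases Nat.eq_zero_or_pos T with h0 | h0
        · subst h0; simp only [Nat.cast_zero, zero_mul] at hb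
          linarith [show (0 : ℝ) ≤ (K : ℝ) + q from by positivity]
        · exact h0
      refine ⟨_, ?_, hkey T hTpos ?_⟩
      · have := hq' T
        rw [← Nat.cast_sum] at this
        have : (K : ℝ) ≤ ((∑ z : X × Y, ⌊(T : ℝ) * W z.1 z.2⌋₊ : ℕ) : ℝ) := by nlinarith
        exact_mod_cast this
      · have := hq' T
        nlinarith
  have hcM : 0 < c ^ E' * M := lt_of_le_of_lt hV0 hc
  set r := V / (c ^ E' * M) with hr
  have hr0 : 0 ≤ r := div_nonneg hV0 hcM.le
  have hr1 : r < 1 := (div_lt_one hcM).2 hc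
  have hlim : Tendsto (fun k : ℕ => (2 : ℝ) ^ (q * E') * ((k : ℝ) ^ (q * E') * r ^ k)) atTop
      (𝓝 0) := by
    simpa using (tendsto_pow_const_mul_const_pow_of_lt_one (q * E') hr0 hr1).const_mul
      ((2 : ℝ) ^ (q * E'))
  obtain ⟨K, hK⟩ := eventually_atTop.1 (hlim.eventually (eventually_lt_nhds zero_lt_one))
  obtain ⟨k, hk, hk'⟩ := hrmain (K + 1)
  have h1 : ((k : ℝ) + 1) ^ (q * E') ≤ (2 : ℝ) ^ (q * E') * (k : ℝ) ^ (q * E') := by
    rw [← mul_pow]
    refine pow_le_pow_left₀ (by positivity) ?_ _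
    have : (1 : ℝ) ≤ k := by exact_mod_cast (show 1 ≤ k by omega)
    linarith
  have h2 := hK k (by omega)
  rw [hr, div_pow] at h2
  have h3 : (2 : ℝ) ^ (q * E') * (k : ℝ) ^ (q * E') * V ^ k < (c ^ E' * M) ^ k := by
    rw [← mul_assoc, mul_div_assoc'] at h2
    rwa [div_lt_one (pow_pos hcM k)] at h2
  have := mul_le_mul_of_nonneg_right h1 (pow_nonneg hV0 k)
  linarith

end Vale.Agent.P050
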