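import Mathlib
import Vale.Agent.P050.Types

/-!
# P050: the density inequality for kernels with nonnegative minors
-/

namespace Vale.Agent.P050

open Finset Filter Topology

variable {X Y L : Type*}

/-- Products of kernels with nonnegative minors have nonnegative minors. -/
lemma TP2.comp [LinearOrder X] [LinearOrder Y] [LinearOrder L] [Fintype L] {P : X → L → ℝ}
    {Q : L → Y → ℝ} (hP : TP2 P) (hQ : TP2 Q) : TP2 fun x y => ∑ l, P x l * Q l y := by
  intro i i' j j' hi hj
  have h : ∀ l l' : L,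
      0 ≤ (P i l * P i' l' - P i l' * P i' l) * (Q l j * Q l' j' - Q l j' * Q l' j) := by
    intro l l'
    rcases le_total l l' with hl | hl
    · exact mul_nonneg (sub_nonneg.2 (hP hi hl)) (sub_nonneg.2 (hQ hl hj))
    · refine mul_nonneg_of_nonpos_of_nonpos (sub_nonpos.2 (hP hi hl)) (sub_nonpos.2 ?_)
      have := hQ hl hj
      linarith
  have h2 : 0 ≤ ∑ l, ∑ l',
      (P i l * P i' l' - P i l' * P i' l) * (Q l j * Q l' j' - Q l j' * Q l' j) :=
    Finset.sum_nonneg fun l _ => Finset.sum_nonneg fun l' _ => h l l'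
  have h3 : ∑ l, ∑ l',
      (P i l * P i' l' - P i l' * P i' l) * (Q l j * Q l' j' - Q l j' * Q l' j) =
      2 * ((∑ l, P i l * Q l j) * (∑ l, P i' l * Q l j') -
        (∑ l, P i l * Q l j') * (∑ l, P i' l * Q l j)) := by
    rw [Finset.sum_congr rfl fun l _ => Finset.sum_congr rfl fun l' _ =>
      (show (P i l * P i' l' - P i l' * P i' l) * (Q l j * Q l' j' - Q l j' * Q l' j) =
        (P i l * Q l j) * (P i' l' * Q l' j') + (P i' l * Q l j') * (P i l' * Q l' j)
          - (P i l * Q l j') * (P i' l' * Q l' j) - (P i' l * Q l j) * (P i l' * Q l' j') by ring)]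
    simp only [Finset.sum_sub_distrib, Finset.sum_add_distrib, ← Finset.mul_sum, ← Finset.sum_mul]
    ring
  linarith

/-- A smoothing kernel, equal to the identity at zero. -/
def smooth (n : ℕ) (ε : ℝ) (i j : Fin n) : ℝ := ε ^ (((i : ℤ) - (j : ℤ)).natAbs ^ 2)

lemma smooth_zero {n : ℕ} (i j : Fin n) : smooth n 0 i j = if i = j then 1 else 0 := by
  unfold smooth
  by_cases h : i = j
  · simp [h]
  · rw [if_neg h, zero_pow]
    have : (i : ℕ) ≠ j := fun e => h (Fin.ext e)
    exact pow_ne_zero _ (by omega)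

lemma smooth_tp2 {n : ℕ} {ε : ℝ} (h0 : 0 ≤ ε) (h1 : ε ≤ 1) : TP2 (smooth n ε) := by
  intro i i' j j' hi hj
  unfold smooth
  rw [← pow_add, ← pow_add]
  refine pow_le_pow_of_le_one h0 h1 ?_
  have hz : ((((i : ℤ) - j).natAbs ^ 2 + ((i' : ℤ) - j').natAbs ^ 2 : ℕ) : ℤ) ≤
      ((((i : ℤ) - j').natAbs ^ 2 + ((i' : ℤ) - j).natAbs ^ 2 : ℕ) : ℤ) := by
    push_cast
    simp only [sq_abs]
    have a : ((i : ℕ) : ℤ) ≤ ((i' : ℕ) : ℤ) := by exact_mod_cast Fin.le_def.1 hi
    have b : ((j : ℕ) : ℤ) ≤ ((j' : ℕ) : ℤ) := by exact_mod_cast Fin.le_def.1 hj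
    nlinarith
  exact_mod_cast hz

variable {A B E : Type*} [Fintype A] [Fintype B] [Fintype E] [DecidableEq A] [DecidableEq B]

/-- The density inequality, cleared of denominators. -/
def Dense [Fintype X] [Fintype Y] (s : E → A) (t : E → B) (W : X → Y → ℝ) : Prop :=
  (∑ x, ∑ y, W x y) ^ Fintype.card E *
      ((Fintype.card X : ℝ) ^ Fintype.card A * (Fintype.card Y : ℝ) ^ Fintype.card B) ≤
    homW s t W * ((Fintype.card X : ℝ) * Fintype.card Y) ^ Fintype.card E

lemma dense_fin_pos {a b m q : ℕ} [DecidableEq E] (s : E → Fin a) (t : E → Fin b)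
    (W : Fin (m + 1) → Fin (q + 1) → ℝ) (hW : ∀ x y, 0 < W x y) (h : TP2 W) : Dense s t W :=
  types_bound s t W (fun x y => (hW x y).le) fun _ σ => lift_le s t W hW h σ

lemma dense_fin {a b m q : ℕ} [DecidableEq E] (s : E → Fin a) (t : E → Fin b)
    (W : Fin (m + 1) → Fin (q + 1) → ℝ) (hW : ∀ x y, 0 ≤ W x y) (h : TP2 W) : Dense s t W := by
  by_cases h0 : ∀ x y, W x y = 0
  · have hs : ∑ x, ∑ y, W x y = 0 := by simp [h0]
    unfold Dense
    rcases Nat.eq_zero_or_pos (Fintype.card E) with hE | hE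
    · have : IsEmpty E := Fintype.card_eq_zero_iff.1 hE
      simp [homW]
    · rw [hs, zero_pow hE.ne', zero_mul]
      exact mul_nonneg (Finset.sum_nonneg fun f _ => Finset.sum_nonneg fun g _ =>
        Finset.prod_nonneg fun e _ => hW _ _) (by positivity)
  push Not at h0
  obtain ⟨x₀, y₀, h00⟩ := h0
  set We : ℝ → Fin (m + 1) → Fin (q + 1) → ℝ :=
    fun ε x y => ∑ l, smooth (m + 1) ε x l * ∑ r, W l r * smooth (q + 1) ε r y with hWe
  have hW0 : We 0 = W := by
    funext x y
    simp [hWe, smooth_zero]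
  have hcont : ∀ x y, Continuous fun ε => We ε x y := by
    intro x y
    simp only [hWe, smooth]
    fun_prop
  have hev : ∀ᶠ ε in 𝓝[>] (0 : ℝ), Dense s t (We ε) := by
    have h1 : ∀ᶠ ε in 𝓝[>] (0 : ℝ), 0 < ε := self_mem_nhdsWithin
    have h2 : ∀ᶠ ε in 𝓝[>] (0 : ℝ), ε ≤ 1 :=
      ((eventually_lt_nhds zero_lt_one).filter_mono nhdsWithin_le_nhds).mono fun _ hx => hx.le
    filter_upwards [h1, h2] with ε he he'
    refine dense_fin_pos s t _ (fun x y => ?_) ?_
    · have hs : ∀ (n : ℕ) (i j : Fin n), 0 < smooth n ε i j := fun n i j => pow_pos he _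
      refine Finset.sum_pos' (fun l _ => mul_nonneg (hs _ _ _).le
        (Finset.sum_nonneg fun r _ => mul_nonneg (hW _ _) (hs _ _ _).le))
        ⟨x₀, Finset.mem_univ _, mul_pos (hs _ _ _) ?_⟩
      exact Finset.sum_pos' (fun r _ => mul_nonneg (hW _ _) (hs _ _ _).le)
        ⟨y₀, Finset.mem_univ _, mul_pos (lt_of_le_of_ne (hW _ _) (Ne.symm h00)) (hs _ _ _)⟩
    · exact (smooth_tp2 he.le he').comp (h.comp (smooth_tp2 he.le he'))
  unfold Dense at hev ⊢
  have hL : Tendsto (fun ε => (∑ x, ∑ y, We ε x y) ^ Fintype.card E *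
      ((Fintype.card (Fin (m + 1)) : ℝ) ^ Fintype.card (Fin a) *
        (Fintype.card (Fin (q + 1)) : ℝ) ^ Fintype.card (Fin b))) (𝓝[>] 0)
      (𝓝 ((∑ x, ∑ y, We 0 x y) ^ Fintype.card E *
      ((Fintype.card (Fin (m + 1)) : ℝ) ^ Fintype.card (Fin a) *
        (Fintype.card (Fin (q + 1)) : ℝ) ^ Fintype.card (Fin b)))) :=
    ((Continuous.tendsto (by fun_prop) 0).mono_left nhdsWithin_le_nhds)
  have hR : Tendsto (fun ε => homW s t (We ε) *
      ((Fintype.card (Fin (m + 1)) : ℝ) * Fintype.card (Fin (q + 1))) ^ Fintype.card E) (𝓝[>] 0)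
      (𝓝 (homW s t (We 0) *
      ((Fintype.card (Fin (m + 1)) : ℝ) * Fintype.card (Fin (q + 1))) ^ Fintype.card E)) :=
    ((Continuous.tendsto (by unfold homW; fun_prop) 0).mono_left nhdsWithin_le_nhds)
  have := le_of_tendsto_of_tendsto hL hR hev
  rwa [hW0] at this

lemma homW_reindex {A' B' X' Y' : Type*} [Fintype A'] [Fintype B'] [DecidableEq A']
    [DecidableEq B'] [Fintype X] [Fintype Y] [Fintype X'] [Fintype Y'] (s : E → A) (t : E → B)
    (W : X → Y → ℝ) (eA : A ≃ A') (eB : B ≃ B') (eX : X' ≃ X) (eY : Y' ≃ Y) :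
    homW (fun e => eA (s e)) (fun e => eB (t e)) (fun x y => W (eX x) (eY y)) = homW s t W := by
  unfold homW
  rw [← Equiv.sum_comp (Equiv.arrowCongr eA.symm eX)]
  refine Finset.sum_congr rfl fun f _ => ?_
  rw [← Equiv.sum_comp (Equiv.arrowCongr eB.symm eY)]
  simp

/-- The density inequality for every bipartite multigraph and every nonnegative kernel with
nonnegative minors on finite chains. -/
theorem dense_tp2 [Fintype X] [Fintype Y] [LinearOrder X] [LinearOrder Y] [Nonempty X]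
    [Nonempty Y] (s : E → A) (t : E → B) (W : X → Y → ℝ) (hW : ∀ x y, 0 ≤ W x y) (h : TP2 W) :
    Dense s t W := by
  classical
  obtain ⟨m, hm⟩ : ∃ m, Fintype.card X = m + 1 := Nat.exists_eq_add_one.2 Fintype.card_pos
  obtain ⟨q, hq⟩ : ∃ q, Fintype.card Y = q + 1 := Nat.exists_eq_add_one.2 Fintype.card_pos
  let eX : Fin (m + 1) ≃o X := monoEquivOfFin X hm
  let eY : Fin (q + 1) ≃o Y := monoEquivOfFin Y hq
  have key := dense_fin (fun e => Fintype.equivFin A (s e)) (fun e => Fintype.equivFin B (t e))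
    (fun x y => W (eX x) (eY y)) (fun x y => hW _ _)
    (fun i i' j j' hi hj => h (eX.monotone hi) (eY.monotone hj))
  unfold Dense at key ⊢
  simp only [Fintype.card_fin] at key
  have hs : ∑ x, ∑ y, W (eX x) (eY y) = ∑ x, ∑ y, W x y := by
    rw [← Equiv.sum_comp eX.toEquiv (fun x => ∑ y, W x y)]
    exact Finset.sum_congr rfl fun x _ => Equiv.sum_comp eY.toEquiv (fun y => W (eX x) y)
  have hh := homW_reindex s t W (Fintype.equivFin A) (Fintype.equivFin B) eX.toEquiv eY.toEquiv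
  simp only [OrderIso.coe_toEquiv] at hh
  rwa [hs, hh, ← hm, ← hq] at key

/-- The minors of a kernel of rank two are controlled by two real keys. -/
lemma minor_nonneg_of_keys [Fintype X] [Fintype Y] (u v : X → ℝ) (a b : Y → ℝ)
    (hW : ∀ x y, 0 ≤ u x * a y + v x * b y) {x x' : X} {y y' : Y}
    (hx : ((∑ z, b z) * u x - (∑ z, a z) * v x) / (u x * (∑ z, a z) + v x * ∑ z, b z) ≤
      ((∑ z, b z) * u x' - (∑ z, a z) * v x') / (u x' * (∑ z, a z) + v x' * ∑ z, b z))
    (hy : ((∑ z, v z) * a y - (∑ z, u z) * b y) / ((∑ z, u z) * a y + (∑ z, v z) * b y) ≤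
      ((∑ z, v z) * a y' - (∑ z, u z) * b y') / ((∑ z, u z) * a y' + (∑ z, v z) * b y')) :
    (u x * a y' + v x * b y') * (u x' * a y + v x' * b y) ≤
      (u x * a y + v x * b y) * (u x' * a y' + v x' * b y') := by
  have hrow : ∀ z, u z * (∑ w, a w) + v z * ∑ w, b w = ∑ w, (u z * a w + v z * b w) := by
    intro z; simp [Finset.sum_add_distrib, Finset.mul_sum]
  have hcol : ∀ w, (∑ z, u z) * a w + (∑ z, v z) * b w = ∑ z, (u z * a w + v z * b w) := by
    intro w; simp [Finset.sum_add_distrib, Finset.sum_mul]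
  have hrowz : ∀ z, u z * (∑ w, a w) + v z * (∑ w, b w) = 0 →
      ∀ w, u z * a w + v z * b w = 0 := by
    intro z hz w
    rw [hrow] at hz
    exact (Finset.sum_eq_zero_iff_of_nonneg fun w _ => hW z w).1 hz w (Finset.mem_univ _)
  have hcolz : ∀ w, (∑ z, u z) * a w + (∑ z, v z) * b w = 0 →
      ∀ z, u z * a w + v z * b w = 0 := by
    intro w hw z
    rw [hcol] at hw
    exact (Finset.sum_eq_zero_iff_of_nonneg fun z _ => hW z w).1 hw z (Finset.mem_univ _)
  set SA := ∑ w, a w with hSA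
  set SB := ∑ w, b w with hSB
  set SU := ∑ z, u z with hSU
  set SV := ∑ z, v z with hSV
  by_cases h1 : u x * SA + v x * SB = 0
  · simp [hrowz x h1]
  by_cases h2 : u x' * SA + v x' * SB = 0
  · simp [hrowz x' h2]
  by_cases h3 : SU * a y + SV * b y = 0
  · simp [hcolz y h3]
  by_cases h4 : SU * a y' + SV * b y' = 0
  · simp [hcolz y' h4]
  have p1 : 0 < u x * SA + v x * SB :=
    lt_of_le_of_ne (by rw [hrow]; exact Finset.sum_nonneg fun w _ => hW x w) (Ne.symm h1)
  have p2 : 0 < u x' * SA + v x' * SB :=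
    lt_of_le_of_ne (by rw [hrow]; exact Finset.sum_nonneg fun w _ => hW x' w) (Ne.symm h2)
  have p3 : 0 < SU * a y + SV * b y :=
    lt_of_le_of_ne (by rw [hcol]; exact Finset.sum_nonneg fun z _ => hW z y) (Ne.symm h3)
  have p4 : 0 < SU * a y' + SV * b y' :=
    lt_of_le_of_ne (by rw [hcol]; exact Finset.sum_nonneg fun z _ => hW z y') (Ne.symm h4)
  rw [div_le_div_iff₀ p1 p2] at hx
  rw [div_le_div_iff₀ p3 p4] at hy
  have hD : (SA ^ 2 + SB ^ 2) * (u x * v x' - u x' * v x) ≤ 0 := by nlinarith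
  have hE : (SU ^ 2 + SV ^ 2) * (a y * b y' - a y' * b y) ≤ 0 := by nlinarith
  have qA : 0 < SA ^ 2 + SB ^ 2 := by
    rcases eq_or_ne SA 0 with h | h
    · rcases eq_or_ne SB 0 with h' | h'
      · simp [h, h'] at p1
      · positivity
    · positivity
  have qU : 0 < SU ^ 2 + SV ^ 2 := by
    rcases eq_or_ne SU 0 with h | h
    · rcases eq_or_ne SV 0 with h' | h'
      · simp [h, h'] at p3
      · positivity
    · positivity
  have hD' : u x * v x' - u x' * v x ≤ 0 := nonpos_of_mul_nonpos_right hD qA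
  have hE' : a y * b y' - a y' * b y ≤ 0 := nonpos_of_mul_nonpos_right hE qU
  nlinarith [mul_nonneg_of_nonpos_of_nonpos hD' hE']

/-- The density inequality for every nonnegative kernel of rank at most two. -/
theorem dense_rank_two [Fintype X] [Fintype Y] [Nonempty X] [Nonempty Y] (s : E → A) (t : E → B)
    (u v : X → ℝ) (a b : Y → ℝ) (hW : ∀ x y, 0 ≤ u x * a y + v x * b y) :
    Dense s t fun x y => u x * a y + v x * b y := by
  classical
  set κ : X → ℝ := fun x =>
    ((∑ z, b z) * u x - (∑ z, a z) * v x) / (u x * (∑ z, a z) + v x * ∑ z, b z)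
  set μ : Y → ℝ := fun y =>
    ((∑ z, v z) * a y - (∑ z, u z) * b y) / ((∑ z, u z) * a y + (∑ z, v z) * b y)
  letI : LinearOrder X := LinearOrder.lift' (fun x => toLex (κ x, Fintype.equivFin X x))
    fun x x' h => by
      have := congrArg (fun p => (ofLex p).2) h
      simpa using this
  letI : LinearOrder Y := LinearOrder.lift' (fun y => toLex (μ y, Fintype.equivFin Y y))
    fun y y' h => by
      have := congrArg (fun p => (ofLex p).2) h
      simpa using this
  refine dense_tp2 s t _ hW ?_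
  intro x x' y y' hx hy
  have hκ : κ x ≤ κ x' := by
    rcases (Prod.Lex.le_iff.1 hx) with h | ⟨h, _⟩
    · exact h.le
    · exact h.le
  have hμ : μ y ≤ μ y' := by
    rcases (Prod.Lex.le_iff.1 hy) with h | ⟨h, _⟩
    · exact h.le
    · exact h.le
  exact minor_nonneg_of_keys u v a b hW hκ hμ

end Vale.Agent.P050
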